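import Vale.Agent.P284.H894.G.Spec
import Mathlib.Topology.Algebra.Module.Cardinality

/-!
# P284 (helper427), block G10: a bounded subharmonic function with countably many values is constant
-/

open scoped Topology Real
open Filter Set Metric MeasureTheory

noncomputable section

namespace Vale.Agent.P284.H427

open Vale.Agent.P284.H894.G

/-- composition of an upper semicontinuous function with a circle -/
theorem usc_circle {w : ℂ → ℝ} {c : ℂ} {ρ : ℝ} (h : ∀ z ∈ sphere c |ρ|, UpperSemicontinuousAt w z) :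
    UpperSemicontinuous fun θ : ℝ => w (circleMap c ρ θ) := by
  intro θ
  exact (h _ (circleMap_mem_sphere' c ρ θ)).comp (continuous_circleMap c ρ).continuousAt

theorem intervalIntegrable_usc {g : ℝ → ℝ} (hg : UpperSemicontinuous g) {B : ℝ}
    (hB : ∀ x, |g x| ≤ B) (a b : ℝ) : IntervalIntegrable g volume a b := by
  refine (intervalIntegrable_const (c := B)).mono_fun hg.measurable.aestronglyMeasurable ?_
  filter_upwards with x
  rw [Real.norm_eq_abs, Real.norm_eq_abs]
  exact (hB x).trans (le_abs_self B)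

/-- If the function is at most `s` on one third of the circle and at most `a` on the circle, then its
mean is at most `(2 a + s) / 3`. -/
theorem arc_le {w : ℂ → ℝ} {c : ℂ} {ρ a s B : ℝ}
    (h : ∀ z ∈ sphere c |ρ|, UpperSemicontinuousAt w z) (hB : ∀ z, |w z| ≤ B)
    (ha : ∀ θ : ℝ, w (circleMap c ρ θ) ≤ a)
    (hs : ∀ θ ∈ Ioo (2 * π / 3) (4 * π / 3), w (circleMap c ρ θ) ≤ s) :
    Real.circleAverage w c ρ ≤ (2 * a + s) / 3 := by
  have hπ := Real.pi_pos
  have hint := intervalIntegrable_usc (usc_circle h) (fun θ => hB (circleMap c ρ θ))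
  rw [Real.circleAverage_def, smul_eq_mul,
    ← intervalIntegral.integral_add_adjacent_intervals (hint 0 (2 * π / 3))
      (hint (2 * π / 3) (2 * π)),
    ← intervalIntegral.integral_add_adjacent_intervals (hint (2 * π / 3) (4 * π / 3))
      (hint (4 * π / 3) (2 * π))]
  have h1 : ∫ θ in (0 : ℝ)..(2 * π / 3), w (circleMap c ρ θ) ≤ (2 * π / 3) * a := by
    have := intervalIntegral.integral_mono_on (a := 0) (b := 2 * π / 3) (by positivity)
      (hint 0 (2 * π / 3)) (intervalIntegrable_const (c := a)) (fun θ _ => ha θ)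
    rwa [intervalIntegral.integral_const, smul_eq_mul, sub_zero] at this
  have h3 : ∫ θ in (4 * π / 3)..(2 * π), w (circleMap c ρ θ) ≤ (2 * π / 3) * a := by
    have := intervalIntegral.integral_mono_on (a := 4 * π / 3) (b := 2 * π) (by linarith)
      (hint (4 * π / 3) (2 * π)) (intervalIntegrable_const (c := a)) (fun θ _ => ha θ)
    rwa [intervalIntegral.integral_const, smul_eq_mul,
      show 2 * π - 4 * π / 3 = 2 * π / 3 by ring] at this
  have h2 : ∫ θ in (2 * π / 3)..(4 * π / 3), w (circleMap c ρ θ) ≤ (2 * π / 3) * s := by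
    have := intervalIntegral.integral_mono_on_of_le_Ioo (a := 2 * π / 3) (b := 4 * π / 3)
      (by linarith) (hint (2 * π / 3) (4 * π / 3)) (intervalIntegrable_const (c := s)) hs
    rwa [intervalIntegral.integral_const, smul_eq_mul,
      show 4 * π / 3 - 2 * π / 3 = 2 * π / 3 by ring] at this
  have h4 : (2 * π)⁻¹ * (2 * π / 3 * a + (2 * π / 3 * s + 2 * π / 3 * a)) = (2 * a + s) / 3 := by
    field_simp
    ring
  rw [← h4]
  refine mul_le_mul_of_nonneg_left ?_ (by positivity)
  linarith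

/-- On the arc `(2π/3, 4π/3)` the point `z + ρ e^{iθ} z` is closer to `0` than `z`. -/
theorem norm_arc_lt {θ ρ : ℝ} (hρ : 0 < ρ) (hρ1 : ρ ≤ 1) (hθ : θ ∈ Ioo (2 * π / 3) (4 * π / 3)) :
    ‖1 + circleMap 0 ρ θ‖ < 1 := by
  have hπ := Real.pi_pos
  have hcos : Real.cos θ < -(1 / 2) := by
    have h1 : Real.cos (θ - π) > Real.cos (π / 3) := by
      rw [← Real.cos_abs (θ - π)]
      refine Real.cos_lt_cos_of_nonneg_of_le_pi_div_two (abs_nonneg _) (by linarith) ?_
      rw [abs_lt]
      constructor <;> linarith [hθ.1, hθ.2]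
    rw [Real.cos_sub_pi, Real.cos_pi_div_three] at h1
    linarith
  have h2 : Complex.normSq (1 + circleMap 0 ρ θ) = 1 + 2 * ρ * Real.cos θ + ρ ^ 2 := by
    rw [circleMap, zero_add, Complex.normSq_apply]
    simp only [Complex.add_re, Complex.one_re, Complex.add_im, Complex.one_im, Complex.mul_re,
      Complex.mul_im, Complex.ofReal_re, Complex.ofReal_im, Complex.exp_ofReal_mul_I_re,
      Complex.exp_ofReal_mul_I_im]
    have := Real.sin_sq_add_cos_sq θ
    nlinarith
  rw [Complex.norm_def, h2, Real.sqrt_lt' one_pos]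
  nlinarith

/-- If `w < s` in the open disc of radius `r` then `w ≤ s` on its boundary. -/
theorem le_of_ball {w : ℂ → ℝ} {z : ℂ} {s B : ℝ} (hz0 : z ≠ 0)
    (husc : ∀ᶠ z' in 𝓝 z, UpperSemicontinuousAt w z') (hB : ∀ z, |w z| ≤ B)
    (hmean : ∃ δ > 0, ∀ ρ ∈ Ioo (0 : ℝ) δ, w z ≤ Real.circleAverage w z ρ)
    (hs : ∀ z' ∈ ball (0 : ℂ) ‖z‖, w z' ≤ s) : w z ≤ s := by
  have hz : 0 < ‖z‖ := norm_pos_iff.2 hz0
  refine le_of_forall_pos_le_add fun ε hε => ?_
  obtain ⟨δ, hδ, hm⟩ := hmean
  obtain ⟨δ₁, hδ₁, h1⟩ := Metric.eventually_nhds_iff_ball.1 husc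
  have h2 : ∀ᶠ z' in 𝓝 z, w z' < w z + ε / 2 :=
    husc.self_of_nhds (w z + ε / 2) (by linarith)
  obtain ⟨δ₂, hδ₂, h3⟩ := Metric.eventually_nhds_iff_ball.1 h2
  obtain ⟨ρ, hρ0, hρ⟩ : ∃ ρ : ℝ, 0 < ρ ∧ ρ < min (min δ δ₁) (min δ₂ ‖z‖) :=
    exists_between (lt_min (lt_min hδ hδ₁) (lt_min hδ₂ hz))
  have hρδ : ρ < δ := hρ.trans_le ((min_le_left _ _).trans (min_le_left _ _))
  have hρδ₁ : ρ < δ₁ := hρ.trans_le ((min_le_left _ _).trans (min_le_right _ _))
  have hρδ₂ : ρ < δ₂ := hρ.trans_le ((min_le_right _ _).trans (min_le_left _ _))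
  have hρz : ρ < ‖z‖ := hρ.trans_le ((min_le_right _ _).trans (min_le_right _ _))
  -- rotate the circle so that the arc is inside the disc
  set η : ℝ := Complex.arg z with hη
  have hzη : z = ‖z‖ * Complex.exp (η * Complex.I) := (Complex.norm_mul_exp_arg_mul_I z).symm
  have hmean' : w z ≤ Real.circleAverage (fun t => w (z + t * Complex.exp (η * Complex.I))) 0 ρ := by
    refine (hm ρ ⟨hρ0, hρδ⟩).trans_eq ?_
    rw [Real.circleAverage_eq_integral_add η, Real.circleAverage_def]
    congr 1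
    refine intervalIntegral.integral_congr fun θ _ => ?_
    simp only [circleMap, zero_add]
    congr 2
    rw [mul_assoc, ← Complex.exp_add]
    congr 2
    push_cast
    ring
  have hexp : ‖Complex.exp (η * Complex.I)‖ = 1 := Complex.norm_exp_ofReal_mul_I η
  have hdist : ∀ t : ℂ, ‖t‖ < δ₁ → z + t * Complex.exp (η * Complex.I) ∈ ball z δ₁ := by
    intro t ht
    rw [mem_ball, dist_eq_norm, add_sub_cancel_left, norm_mul, hexp, mul_one]
    exact ht
  have h5 := arc_le (w := fun t => w (z + t * Complex.exp (η * Complex.I))) (c := 0) (ρ := ρ)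
    (a := w z + ε / 2) (s := s) (B := B) ?_ (fun t => hB _) ?_ ?_
  · have := hmean'.trans h5
    linarith
  · intro t ht
    have ht' : ‖t‖ = ρ := by
      rw [mem_sphere, dist_zero_right, abs_of_pos hρ0] at ht
      exact ht
    have h6 : UpperSemicontinuousAt w (z + t * Complex.exp (η * Complex.I)) :=
      h1 _ (hdist t (ht' ▸ hρδ₁))
    exact UpperSemicontinuousAt.comp (f := w) (g := fun t => z + t * Complex.exp (η * Complex.I))
      h6 (by fun_prop)
  · intro θ
    refine (h3 _ ?_).le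
    rw [mem_ball, dist_eq_norm, add_sub_cancel_left, norm_mul, hexp, mul_one, norm_circleMap_zero,
      abs_of_pos hρ0]
    exact hρδ₂
  · intro θ hθ
    refine hs _ ?_
    rw [mem_ball, dist_zero_right]
    have h7 : z + circleMap 0 ρ θ * Complex.exp (η * Complex.I) =
        z * (1 + circleMap 0 (ρ / ‖z‖) θ) := by
      have hz' : (‖z‖ : ℂ) ≠ 0 := by exact_mod_cast hz.ne'
      have h8 : circleMap 0 ρ θ = ‖z‖ * circleMap 0 (ρ / ‖z‖) θ := by
        simp only [circleMap, zero_add]
        push_cast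
        field_simp
      rw [h8, mul_add, mul_one]
      congr 1
      rw [mul_right_comm, ← hzη]
    rw [h7, norm_mul]
    have h9 := norm_arc_lt (θ := θ) (div_pos hρ0 hz) ((div_le_one hz).2 hρz.le) hθ
    nlinarith

/-- The value at the centre is the largest one. -/
theorem le_center {w : ℂ → ℝ} {R B : ℝ} (husc : ∀ z ∈ ball (0 : ℂ) R, UpperSemicontinuousAt w z)
    (hB : ∀ z, |w z| ≤ B)
    (hmean : ∀ c ∈ ball (0 : ℂ) R, ∃ δ > 0, ∀ ρ ∈ Ioo (0 : ℝ) δ, w c ≤ Real.circleAverage w c ρ)
    (hc : (w '' ball (0 : ℂ) R).Countable) : ∀ z ∈ ball (0 : ℂ) R, w z ≤ w 0 := by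
  intro z₀ hz₀
  by_contra hlt
  push Not at hlt
  have hz₀R : ‖z₀‖ < R := by simpa using hz₀
  obtain ⟨s, hs, h0s, hsz⟩ := (hc.dense_compl ℝ).exists_between hlt
  set A : Set ℝ := {r | 0 ≤ r ∧ r ≤ ‖z₀‖ ∧ ∀ z : ℂ, ‖z‖ ≤ r → w z < s} with hA
  have h0A : (0 : ℝ) ∈ A := by
    refine ⟨le_rfl, norm_nonneg _, fun z hz => ?_⟩
    rw [norm_le_zero_iff.1 hz]
    exact h0s
  have hAb : BddAbove A := ⟨‖z₀‖, fun r hr => hr.2.1⟩
  set t : ℝ := sSup A with ht
  have ht0 : 0 ≤ t := le_csSup hAb h0A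
  have htz : t ≤ ‖z₀‖ := csSup_le ⟨0, h0A⟩ fun r hr => hr.2.1
  have h1 : ∀ z : ℂ, ‖z‖ < t → w z < s := by
    intro z hz
    obtain ⟨r, hr, hzr⟩ := exists_lt_of_lt_csSup ⟨0, h0A⟩ hz
    exact hr.2.2 z hzr.le
  have h2 : ∀ z : ℂ, ‖z‖ ≤ t → w z < s := by
    intro z hz
    rcases hz.lt_or_eq with h | h
    · exact h1 z h
    · by_cases hz0 : z = 0
      · rw [hz0]
        exact h0s
      have hzR : z ∈ ball (0 : ℂ) R := by
        rw [mem_ball, dist_zero_right, h]
        exact htz.trans_lt hz₀R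
      have h3 : w z ≤ s := by
        refine le_of_ball hz0 ?_ hB (hmean z hzR) ?_
        · filter_upwards [isOpen_ball.mem_nhds hzR] with z' hz' using husc z' hz'
        · intro z' hz'
          refine (h1 z' ?_).le
          rw [mem_ball, dist_zero_right] at hz'
          exact hz'.trans_eq h
      refine h3.lt_of_ne fun h4 => hs ?_
      exact ⟨z, hzR, h4⟩
  have htlt : t < ‖z₀‖ := by
    refine htz.lt_of_ne fun h => ?_
    have := h2 z₀ h.ge
    linarith
  have hV : IsOpen {z : ℂ | z ∈ ball (0 : ℂ) R ∧ w z < s} := by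
    rw [isOpen_iff_mem_nhds]
    rintro z ⟨hz, hzs⟩
    filter_upwards [isOpen_ball.mem_nhds hz, husc z hz s hzs] with z' h3 h4 using ⟨h3, h4⟩
  have hsub : closedBall (0 : ℂ) t ⊆ {z : ℂ | z ∈ ball (0 : ℂ) R ∧ w z < s} := by
    intro z hz
    rw [mem_closedBall, dist_zero_right] at hz
    refine ⟨?_, h2 z hz⟩
    rw [mem_ball, dist_zero_right]
    exact hz.trans_lt (htlt.trans hz₀R)
  obtain ⟨δ, hδ, hthick⟩ := (isCompact_closedBall (0 : ℂ) t).exists_thickening_subset_open hV hsub
  rw [thickening_closedBall hδ ht0] at hthick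
  have hmem : min (t + δ / 2) ‖z₀‖ ∈ A := by
    refine ⟨le_min (by linarith) (norm_nonneg _), min_le_right _ _, fun z hz => ?_⟩
    refine (hthick ?_).2
    rw [mem_ball, dist_zero_right]
    have := hz.trans (min_le_left _ _)
    linarith
  have h5 := le_csSup hAb hmem
  rw [← ht] at h5
  have h6 : t < min (t + δ / 2) ‖z₀‖ := lt_min (by linarith) htlt
  exact absurd h5 (not_le.2 h6)

/-- A locally constant function on a preconnected set is constant. -/
theorem const_of_loc {α β : Type*} [TopologicalSpace α] {U : Set α} (hU : IsPreconnected U)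
    {f : α → β} (h : ∀ x ∈ U, ∀ᶠ y in 𝓝 x, f y = f x) {x y : α} (hx : x ∈ U) (hy : y ∈ U) :
    f x = f y := by
  let _ : TopologicalSpace β := ⊥
  have _ : DiscreteTopology β := ⟨rfl⟩
  refine hU.constant (f := f) (fun z hz => ?_) hx hy
  refine ContinuousAt.continuousWithinAt ?_
  rw [ContinuousAt, nhds_discrete β, tendsto_pure]
  exact h z hz

theorem g10Stmt : G10Stmt := by
  intro w husc ⟨B, hB⟩ hmean hc z hz
  -- the value at every point is the largest one in a ball around it
  have key : ∀ c ∈ ball (0 : ℂ) 1, ∀ z ∈ ball c (1 - ‖c‖), w z ≤ w c := by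
    intro c hc1 z hz
    have hin : ∀ t ∈ ball (0 : ℂ) (1 - ‖c‖), c + t ∈ ball (0 : ℂ) 1 := by
      intro t ht
      rw [mem_ball, dist_zero_right] at ht ⊢
      have := norm_add_le c t
      linarith
    have h := le_center (w := fun t => w (c + t)) (R := 1 - ‖c‖) (B := B) (fun t ht =>
      UpperSemicontinuousAt.comp (f := w) (g := fun t => c + t) (husc _ (hin t ht)) (by fun_prop))
      (fun t => hB _) (fun t ht => by
        obtain ⟨δ, hδ, h⟩ := hmean _ (hin t ht)
        refine ⟨δ, hδ, fun ρ hρ => (h ρ hρ).trans_eq ?_⟩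
        rw [Real.circleAverage_def, Real.circleAverage_def]
        congr 1
        refine intervalIntegral.integral_congr fun θ _ => ?_
        simp only [circleMap]
        congr 1
        ring) (hc.mono (by
          rintro _ ⟨t, ht, rfl⟩
          exact ⟨c + t, hin t ht, rfl⟩)) (z - c) (by
        rw [mem_ball, dist_zero_right]
        rwa [mem_ball, dist_eq_norm] at hz)
    simpa using h
  refine const_of_loc (convex_ball (0 : ℂ) 1).isPreconnected (f := w) (fun c hc1 => ?_) hz
    (mem_ball_self one_pos)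
  have hc1' : ‖c‖ < 1 := by simpa using hc1
  filter_upwards [ball_mem_nhds c (half_pos (sub_pos.2 hc1'))] with z hz
  rw [mem_ball, dist_eq_norm] at hz
  have h1 : ‖z‖ ≤ ‖c‖ + ‖z - c‖ := by
    have := norm_add_le c (z - c)
    rwa [add_sub_cancel] at this
  refine le_antisymm (key c hc1 z ?_) (key z ?_ c ?_)
  · rw [mem_ball, dist_eq_norm]
    linarith
  · rw [mem_ball, dist_zero_right]
    linarith
  · rw [mem_ball, dist_eq_norm, norm_sub_rev]
    linarith

end Vale.Agent.P284.H427
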