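import Vale.Agent.P284.H427.G10
import Vale.Agent.P272.K.Inv.Chart

/-!
# P284 (helper427), block G11: a bounded psh function on the covering with countably many values on a
connected open set is constant there
-/

open scoped Topology Real Manifold ContDiff
open Filter Set Metric MeasureTheory

noncomputable section

namespace Vale.Agent.P284.H427

open Vale.Agent.P272.K Vale.Agent.P284.H894.G

section
variable {n : ℕ} {X : Type} [TopologicalSpace X] [ChartedSpace (Cm n) X]
  [IsManifold 𝓘(ℂ, Cm n) ω X] {E : Type} [TopologicalSpace E] {p : E → X}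

/-- The lift of an affine disc of a chart is a holomorphic disc of the covering space. -/
theorem isDisc_affine {h : OpenPartialHomeomorph E X} (hp : p = h) {e : Chart n X}
    (he : e ∈ atlas (Cm n) X) {a b : Cm n}
    (hin : ∀ t ∈ ball (0 : ℂ) 1, a + t • b ∈ e.target ∩ e.symm ⁻¹' h.target) :
    IsDisc (n := n) p fun t => h.symm (e.symm (a + t • b)) := by
  constructor
  · intro t ht
    have h1 := hin t ht
    refine ContinuousAt.continuousWithinAt ?_
    refine ContinuousAt.comp (f := fun t : ℂ => e.symm (a + t • b)) (g := h.symm)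
      (h.continuousAt_symm h1.2) ?_
    exact ContinuousAt.comp (f := fun t : ℂ => a + t • b) (g := e.symm)
      (e.continuousAt_symm h1.1) (by fun_prop)
  · intro t ht e' he'
    have h1 := hin t ht
    have hat : At e (e.symm (a + t • b)) := At.of_target he h1.1
    have hpt : p (h.symm (e.symm (a + t • b))) = e.symm (a + t • b) := by
      rw [hp]
      exact h.right_inv h1.2
    rw [hpt] at he'
    have h2 : DifferentiableAt ℂ (fun z => e' (e.symm z)) (a + t • b) := by
      have := transition_differentiableAt hat he'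
      rwa [e.right_inv h1.1] at this
    have h3 : DifferentiableAt ℂ (fun s : ℂ => e' (e.symm (a + s • b))) t :=
      DifferentiableAt.comp (f := fun s : ℂ => a + s • b) t h2 (by fun_prop)
    refine h3.congr_of_eventuallyEq ?_
    filter_upwards [isOpen_ball.mem_nhds ht] with s hs
    rw [hp, h.right_inv (hin s hs).2]

/-- The mean of a function over a circle, rescaled. -/
theorem circleAverage_scale (W : ℂ → ℝ) (c : ℂ) {κ ρ : ℝ} (hκ : κ ≠ 0) :
    Real.circleAverage W c ρ = Real.circleAverage (fun t : ℂ => W (c + t * κ)) 0 (ρ / κ) := by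
  have hκ' : (κ : ℂ) ≠ 0 := by exact_mod_cast hκ
  rw [Real.circleAverage_def, Real.circleAverage_def]
  congr 1
  refine intervalIntegral.integral_congr fun θ _ => ?_
  simp only [circleMap, zero_add]
  congr 2
  push_cast
  field_simp

theorem g11Stmt : G11Stmt := by
  intro hG10 n X _ _ _ _ E _ p hcov u hu hB U hU hUc hc y hy y' hy'
  obtain ⟨B, hB⟩ := hB
  refine const_of_loc hUc (fun y hy => ?_) hy hy'
  obtain ⟨h, hyh, hp⟩ := hcov.isLocalHomeomorph y
  set e : Chart n X := chartAt (Cm n) (p y) with he
  have hat : At e (p y) := ⟨chart_mem_atlas _ _, mem_chart_source _ _⟩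
  set c : Cm n := e (p y) with hcdef
  -- the points of the chart whose lift is defined and in `U`
  have hWo : IsOpen (h.target ∩ h.symm ⁻¹' U) := h.isOpen_inter_preimage_symm hU
  have hGo : IsOpen (e.target ∩ e.symm ⁻¹' (h.target ∩ h.symm ⁻¹' U)) :=
    e.isOpen_inter_preimage_symm hWo
  have hsc : h.symm (e.symm c) = y := by
    rw [hcdef, e.left_inv hat.2, hp, h.left_inv hyh]
  have hcG : c ∈ e.target ∩ e.symm ⁻¹' (h.target ∩ h.symm ⁻¹' U) := by
    refine ⟨hat.mem_target, ?_⟩
    rw [mem_preimage, hcdef, e.left_inv hat.2]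
    refine ⟨?_, ?_⟩
    · rw [hp]
      exact h.map_source hyh
    · rw [mem_preimage, hp, h.left_inv hyh]
      exact hy
  obtain ⟨R, hR, hball⟩ := Metric.isOpen_iff.1 hGo c hcG
  -- `u` is constant on the ball of radius `R / 2`
  have key : ∀ z ∈ ball c (R / 2), u (h.symm (e.symm z)) = u y := by
    intro z hz
    set w : Cm n := (2 : ℂ) • (z - c) with hw
    have hwR : ‖w‖ < R := by
      rw [hw, norm_smul]
      rw [mem_ball, dist_eq_norm] at hz
      simp only [Complex.norm_ofNat]
      linarith
    have hin : ∀ t ∈ ball (0 : ℂ) 1, c + t • w ∈ ball c R := by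
      intro t ht
      rw [mem_ball, dist_zero_right] at ht
      rw [mem_ball, dist_eq_norm, add_sub_cancel_left, norm_smul]
      have := norm_nonneg w
      nlinarith [norm_nonneg t]
    have hcont : ∀ t ∈ ball (0 : ℂ) 1, ContinuousAt (fun t : ℂ => h.symm (e.symm (c + t • w))) t := by
      intro t ht
      have h1 := hball (hin t ht)
      refine ContinuousAt.comp (f := fun t : ℂ => e.symm (c + t • w)) (g := h.symm)
        (h.continuousAt_symm h1.2.1) ?_
      exact ContinuousAt.comp (f := fun t : ℂ => c + t • w) (g := e.symm)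
        (e.continuousAt_symm h1.1) (by fun_prop)
    have h1 := hG10 (fun t => u (h.symm (e.symm (c + t • w)))) (fun t ht =>
        UpperSemicontinuousAt.comp (f := u) (g := fun t : ℂ => h.symm (e.symm (c + t • w)))
          (hu.usc _) (hcont t ht)) ⟨B, fun t => hB _⟩ ?_ ?_ (1 / 2) (by
            rw [mem_ball, dist_zero_right]
            norm_num)
    · have h2 : c + (1 / 2 : ℂ) • w = z := by
        rw [hw, smul_smul]
        norm_num
      simp only [h2, zero_smul, add_zero] at h1
      rw [h1, hsc]
    · intro a ha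
      have ha' : ‖a‖ < 1 := by simpa using ha
      set κ : ℝ := 1 - ‖a‖ with hκ
      have hκ0 : 0 < κ := by linarith
      have hin' : ∀ t ∈ ball (0 : ℂ) 1, a + t * κ ∈ ball (0 : ℂ) 1 := by
        intro t ht
        rw [mem_ball, dist_zero_right] at ht ⊢
        have h1 := norm_add_le a (t * κ)
        rw [norm_mul, Complex.norm_real, Real.norm_eq_abs, abs_of_pos hκ0] at h1
        nlinarith
      have hd := isDisc_affine (n := n) hp hat.1 (a := c + a • w) (b := (κ : ℂ) • w) (by
        intro t ht
        have h1 := hball (hin _ (hin' t ht))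
        rw [show c + (a + t * κ) • w = c + a • w + t • (κ : ℂ) • w by
          rw [add_smul, mul_smul, add_assoc]] at h1
        exact ⟨h1.1, h1.2.1⟩)
      obtain ⟨δ, hδ, hm⟩ := hu.mean _ hd
      refine ⟨δ * κ, mul_pos hδ hκ0, fun ρ hρ => ?_⟩
      have h2 := hm (ρ / κ) ⟨div_pos hρ.1 hκ0, (div_lt_iff₀ hκ0).2 hρ.2⟩
      rw [circleAverage_scale _ _ hκ0.ne']
      simp only [zero_smul, add_zero] at h2
      refine h2.trans_eq ?_
      congr 1
      ext t
      rw [add_smul, mul_smul, add_assoc]
    · refine hc.mono ?_
      rintro _ ⟨t, ht, rfl⟩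
      exact ⟨_, (hball (hin t ht)).2.2, rfl⟩
  -- points near `y`
  have hcy : ContinuousAt (fun y' => e (p y')) y :=
    ContinuousAt.comp (f := p) (g := e) (e.continuousAt hat.2) hcov.continuous.continuousAt
  filter_upwards [h.open_source.mem_nhds hyh, hcy.eventually_mem (ball_mem_nhds _ (half_pos hR)),
    hcov.continuous.continuousAt.eventually_mem (e.open_source.mem_nhds hat.2)] with y' h1 h2 h3
  have h4 := key _ h2
  rwa [e.left_inv h3, hp, h.left_inv h1] at h4

end

end Vale.Agent.P284.H427
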