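import Vale.Agent.P284.H427.G10
import Mathlib.Analysis.SpecialFunctions.Integrals.PosLogEqCircleAverage

/-!
# P284 (helper427), block G7: Liouville theorem for bounded subharmonic functions on `ℂ`
-/

open scoped Topology Real
open Filter Set Metric MeasureTheory

noncomputable section

namespace Vale.Agent.P284.H427

open Vale.Agent.P284.H894.G

/-- If the periodic function is at most `s` on one third of the circle and at most `a` everywhere, then
its mean is at most `(2 a + s) / 3`. -/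
theorem arc_le' {f : ℝ → ℝ} {a s : ℝ} (hint : ∀ x y : ℝ, IntervalIntegrable f volume x y)
    (ha : ∀ θ : ℝ, f θ ≤ a) (hs : ∀ θ ∈ Ioo (2 * π / 3) (4 * π / 3), f θ ≤ s) :
    (2 * π)⁻¹ * ∫ θ in (0 : ℝ)..(2 * π), f θ ≤ (2 * a + s) / 3 := by
  have hπ := Real.pi_pos
  rw [← intervalIntegral.integral_add_adjacent_intervals (hint 0 (2 * π / 3))
      (hint (2 * π / 3) (2 * π)),
    ← intervalIntegral.integral_add_adjacent_intervals (hint (2 * π / 3) (4 * π / 3))
      (hint (4 * π / 3) (2 * π))]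
  have h1 : ∫ θ in (0 : ℝ)..(2 * π / 3), f θ ≤ (2 * π / 3) * a := by
    have := intervalIntegral.integral_mono_on (a := 0) (b := 2 * π / 3) (by positivity)
      (hint 0 (2 * π / 3)) (intervalIntegrable_const (c := a)) (fun θ _ => ha θ)
    rwa [intervalIntegral.integral_const, smul_eq_mul, sub_zero] at this
  have h3 : ∫ θ in (4 * π / 3)..(2 * π), f θ ≤ (2 * π / 3) * a := by
    have := intervalIntegral.integral_mono_on (a := 4 * π / 3) (b := 2 * π) (by linarith)
      (hint (4 * π / 3) (2 * π)) (intervalIntegrable_const (c := a)) (fun θ _ => ha θ)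
    rwa [intervalIntegral.integral_const, smul_eq_mul,
      show 2 * π - 4 * π / 3 = 2 * π / 3 by ring] at this
  have h2 : ∫ θ in (2 * π / 3)..(4 * π / 3), f θ ≤ (2 * π / 3) * s := by
    have := intervalIntegral.integral_mono_on_of_le_Ioo (a := 2 * π / 3) (b := 4 * π / 3)
      (by linarith) (hint (2 * π / 3) (4 * π / 3)) (intervalIntegrable_const (c := s)) hs
    rwa [intervalIntegral.integral_const, smul_eq_mul,
      show 4 * π / 3 - 2 * π / 3 = 2 * π / 3 by ring] at this
  have h4 : (2 * π)⁻¹ * (2 * π / 3 * a + (2 * π / 3 * s + 2 * π / 3 * a)) = (2 * a + s) / 3 := by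
    field_simp
    ring
  rw [← h4]
  refine mul_le_mul_of_nonneg_left ?_ (by positivity)
  linarith

/-- For `cos θ ≤ 0` the point `1 - ρ e^{iθ}` is outside the closed unit disc. -/
theorem norm_arc_gt {θ ρ : ℝ} (hρ : 0 < ρ) (hθ : θ ∈ Icc (2 * π / 3) (4 * π / 3)) :
    1 < ‖1 - circleMap 0 ρ θ‖ := by
  have hπ := Real.pi_pos
  have hcos : Real.cos θ ≤ 0 := Real.cos_nonpos_of_pi_div_two_le_of_le
    (by linarith [hθ.1]) (by linarith [hθ.2])
  have h2 : Complex.normSq (1 - circleMap 0 ρ θ) = 1 - 2 * ρ * Real.cos θ + ρ ^ 2 := by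
    rw [circleMap, zero_add, Complex.normSq_apply]
    simp only [Complex.sub_re, Complex.one_re, Complex.sub_im, Complex.one_im, Complex.mul_re,
      Complex.mul_im, Complex.ofReal_re, Complex.ofReal_im, Complex.exp_ofReal_mul_I_re,
      Complex.exp_ofReal_mul_I_im]
    have := Real.sin_sq_add_cos_sq θ
    nlinarith
  rw [Complex.norm_def, h2, Real.lt_sqrt (by norm_num)]
  have h3 : 0 < ρ ^ 2 := by positivity
  nlinarith [mul_nonneg hρ.le (neg_nonneg.2 hcos)]

/-- the mean of `log ‖z - a‖` over a circle which does not surround `a` -/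
theorem circleAverage_log_sub {a c : ℂ} {ρ : ℝ} (h : |ρ| < ‖c - a‖) :
    Real.circleAverage (fun z => Real.log ‖z - a‖) c ρ = Real.log ‖c - a‖ := by
  rw [InnerProductSpace.HarmonicOnNhd.circleAverage_eq]
  intro x hx
  apply AnalyticAt.harmonicAt_log_norm (by fun_prop)
  rw [sub_ne_zero]
  rintro rfl
  rw [mem_closedBall, dist_eq_norm, norm_sub_rev] at hx
  exact absurd h (not_lt.2 hx)

/-- The comparison function `w - ε log ‖z - a‖ + k` has no positive maximum at a point which is the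
farthest one from `a` among the points where the maximum is attained. -/
theorem no_max {w : ℂ → ℝ} (husc : UpperSemicontinuous w) {B : ℝ} (hB : ∀ z, |w z| ≤ B)
    {a z : ℂ} {r ε k : ℝ} (hr : 0 < r) (hz : r < ‖z - a‖)
    (hmean : ∃ δ > 0, ∀ ρ ∈ Ioo (0 : ℝ) δ, w z ≤ Real.circleAverage w z ρ)
    (h1 : ∀ z', r ≤ ‖z' - a‖ → w z' + (-ε * Real.log ‖z' - a‖ + k) ≤
      w z + (-ε * Real.log ‖z - a‖ + k))
    (h2 : ∀ z', ‖z - a‖ < ‖z' - a‖ → w z' + (-ε * Real.log ‖z' - a‖ + k) <
      w z + (-ε * Real.log ‖z - a‖ + k)) : False := by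
  have hπ := Real.pi_pos
  set d : ℝ := ‖z - a‖ with hd
  have hd0 : 0 < d := hr.trans hz
  obtain ⟨δ, hδ, hm⟩ := hmean
  obtain ⟨ρ, hρ0, hρ⟩ : ∃ ρ : ℝ, 0 < ρ ∧ ρ < min δ (d - r) :=
    exists_between (lt_min hδ (sub_pos.2 hz))
  have hρδ : ρ < δ := hρ.trans_le (min_le_left _ _)
  have hρr : ρ < d - r := hρ.trans_le (min_le_right _ _)
  have hρd : ρ < d := by linarith
  set h : ℂ → ℝ := fun z' => w z' + (-ε * Real.log ‖z' - a‖ + k) with hh
  -- the points of the circle
  have hcirc : ∀ θ, r ≤ ‖circleMap z ρ θ - a‖ := by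
    intro θ
    have h3 : ‖z - a‖ ≤ ‖circleMap z ρ θ - a‖ + ‖z - circleMap z ρ θ‖ := by
      have := norm_add_le (circleMap z ρ θ - a) (z - circleMap z ρ θ)
      rwa [show circleMap z ρ θ - a + (z - circleMap z ρ θ) = z - a by ring] at this
    have h4 : ‖z - circleMap z ρ θ‖ = ρ := by
      rw [norm_sub_rev, circleMap_sub_center, norm_circleMap_zero, abs_of_pos hρ0]
    linarith
  have hlogc : Continuous fun θ : ℝ => Real.log ‖circleMap z ρ θ - a‖ := by
    refine Continuous.log (by fun_prop) fun θ => ?_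
    have := hcirc θ
    have h5 : 0 < ‖circleMap z ρ θ - a‖ := hr.trans_le this
    exact h5.ne'
  have hwint := intervalIntegrable_usc (g := fun θ => w (circleMap z ρ θ))
    (husc.comp (continuous_circleMap z ρ)) (fun θ => hB _)
  have hhusc : UpperSemicontinuous fun θ : ℝ => h (circleMap z ρ θ) := by
    have hc : Continuous fun θ : ℝ => -ε * Real.log ‖circleMap z ρ θ - a‖ + k := by fun_prop
    exact (husc.comp (continuous_circleMap z ρ)).add hc.upperSemicontinuous
  have hhint : ∀ x y : ℝ, IntervalIntegrable (fun θ => h (circleMap z ρ θ)) volume x y := by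
    intro x y
    have hc : Continuous fun θ : ℝ => -ε * Real.log ‖circleMap z ρ θ - a‖ + k := by fun_prop
    exact (hwint x y).add (hc.intervalIntegrable x y)
  -- the mean inequality for `h`
  have hlogm := circleAverage_log_sub (a := a) (c := z) (ρ := ρ) (by rwa [abs_of_pos hρ0])
  have hmean' : h z ≤ Real.circleAverage h z ρ := by
    have e1 : Real.circleAverage h z ρ =
        Real.circleAverage w z ρ + (-ε * Real.log ‖z - a‖ + k) := by
      have i2 : CircleIntegrable (fun z' => -ε * Real.log ‖z' - a‖) z ρ :=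
        (hlogc.const_mul (-ε)).intervalIntegrable _ _
      have i3 : CircleIntegrable (fun z' => -ε * Real.log ‖z' - a‖ + k) z ρ :=
        ((hlogc.const_mul (-ε)).add_const k).intervalIntegrable _ _
      rw [hh, Real.circleAverage_fun_add (hwint _ _) i3,
        Real.circleAverage_fun_add i2 (circleIntegrable_const k z ρ), Real.circleAverage_const]
      congr 2
      have := Real.circleAverage_fun_smul (a := -ε) (f := fun z' : ℂ => Real.log ‖z' - a‖)
        (c := z) (R := ρ)
      simp only [smul_eq_mul] at this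
      rw [this, hlogm]
    rw [e1]
    have := hm ρ ⟨hρ0, hρδ⟩
    simp only [hh]
    linarith
  -- rotate the circle so that the arc is outward
  set η : ℝ := Complex.arg (a - z) with hη
  have haz : a - z = d * Complex.exp (η * Complex.I) := by
    have := (Complex.norm_mul_exp_arg_mul_I (a - z)).symm
    rwa [norm_sub_rev, ← hd, ← hη] at this
  have hdC : (d : ℂ) ≠ 0 := by exact_mod_cast hd0.ne'
  have hrot : ∀ θ, circleMap z ρ (θ + η) - a = (z - a) * (1 - circleMap 0 (ρ / d) θ) := by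
    intro θ
    have h6 : circleMap z ρ (θ + η) = z + circleMap 0 (ρ / d) θ * (a - z) := by
      rw [haz]
      simp only [circleMap, zero_add]
      push_cast
      rw [add_mul, Complex.exp_add]
      field_simp
    rw [h6]
    ring
  have hout : ∀ θ ∈ Icc (2 * π / 3) (4 * π / 3), d < ‖circleMap z ρ (θ + η) - a‖ := by
    intro θ hθ
    rw [hrot, norm_mul, ← hd]
    have := norm_arc_gt (div_pos hρ0 hd0) hθ
    nlinarith
  have hF : UpperSemicontinuous fun θ : ℝ => h (circleMap z ρ (θ + η)) :=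
    hhusc.comp (f := fun θ : ℝ => h (circleMap z ρ θ)) (g := fun θ : ℝ => θ + η) (by fun_prop)
  obtain ⟨θ₀, hθ₀, hmax⟩ := (hF.upperSemicontinuousOn (Icc (2 * π / 3) (4 * π / 3))).exists_isMaxOn
    (nonempty_Icc.2 (by linarith)) isCompact_Icc
  have hlt : h (circleMap z ρ (θ₀ + η)) < h z := h2 _ (hout θ₀ hθ₀)
  have h7 := arc_le' (f := fun θ : ℝ => h (circleMap z ρ (θ + η))) (a := h z)
    (s := h (circleMap z ρ (θ₀ + η))) (fun x y => by
      have := (hhint (x + η) (y + η)).comp_add_right η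
      simpa using this) (fun θ => h1 _ (hcirc _)) (fun θ hθ => hmax (Ioo_subset_Icc_self hθ))
  rw [Real.circleAverage_eq_integral_add η, smul_eq_mul] at hmean'
  linarith

/-- A bounded subharmonic function on `ℂ` is bounded by its maximum on any disc. -/
theorem le_of_disc {w : ℂ → ℝ} (husc : UpperSemicontinuous w) {B : ℝ} (hB : ∀ z, |w z| ≤ B)
    (hmean : ∀ c, ∃ δ > 0, ∀ ρ ∈ Ioo (0 : ℝ) δ, w c ≤ Real.circleAverage w c ρ)
    {a : ℂ} {r m : ℝ} (hr : 0 < r) (hm : ∀ z ∈ closedBall a r, w z ≤ m) (z₁ : ℂ) : w z₁ ≤ m := by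
  by_contra hlt
  push Not at hlt
  have hz₁ : r < ‖z₁ - a‖ := by
    by_contra h
    push Not at h
    exact absurd (hm z₁ (by rwa [mem_closedBall, dist_eq_norm])) (not_le.2 hlt)
  have hlog1 : 0 < Real.log ‖z₁ - a‖ - Real.log r := sub_pos.2 (Real.log_lt_log hr hz₁)
  obtain ⟨ε, hε0, hε⟩ : ∃ ε : ℝ, 0 < ε ∧ ε < (w z₁ - m) / (Real.log ‖z₁ - a‖ - Real.log r) :=
    exists_between (div_pos (sub_pos.2 hlt) hlog1)
  rw [lt_div_iff₀ hlog1] at hε
  set k : ℝ := -m + ε * Real.log r with hk
  set h : ℂ → ℝ := fun z => w z + (-ε * Real.log ‖z - a‖ + k) with hh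
  have hz₁h : 0 < h z₁ := by
    simp only [hh, hk]
    linarith
  -- `h` is negative far away
  have htend : Tendsto (fun x : ℝ => Real.log x) atTop atTop := Real.tendsto_log_atTop
  obtain ⟨R₀, hR₀⟩ := (htend.eventually_ge_atTop ((B + |k| + 1) / ε)).exists_forall_of_atTop
  set R : ℝ := max R₀ ‖z₁ - a‖ with hR
  have hfar : ∀ z, R ≤ ‖z - a‖ → h z < 0 := by
    intro z hz
    have h1 := hR₀ ‖z - a‖ ((le_max_left _ _).trans hz)
    rw [div_le_iff₀ hε0] at h1
    have h2 := (abs_le.1 (hB z)).2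
    have h3 := le_abs_self k
    simp only [hh]
    linarith
  -- upper semicontinuity of `h` on the annulus
  have hK : IsCompact {z : ℂ | r ≤ ‖z - a‖ ∧ ‖z - a‖ ≤ R} := by
    have h1 : IsClosed {z : ℂ | r ≤ ‖z - a‖} :=
      isClosed_le continuous_const (by fun_prop)
    have h2 : {z : ℂ | r ≤ ‖z - a‖ ∧ ‖z - a‖ ≤ R} = closedBall a R ∩ {z : ℂ | r ≤ ‖z - a‖} := by
      ext z
      rw [mem_inter_iff, mem_closedBall, dist_eq_norm, and_comm]
      rfl
    rw [h2]
    exact (isCompact_closedBall a R).inter_right h1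
  set K : Set ℂ := {z : ℂ | r ≤ ‖z - a‖ ∧ ‖z - a‖ ≤ R} with hKdef
  have husch : UpperSemicontinuousOn h K := by
    intro z hz
    have hz0 : ‖z - a‖ ≠ 0 := (hr.trans_le hz.1).ne'
    have hc : ContinuousAt (fun z : ℂ => -ε * Real.log ‖z - a‖ + k) z := by
      refine ContinuousAt.add (ContinuousAt.mul continuousAt_const ?_) continuousAt_const
      exact ContinuousAt.log (by fun_prop) hz0
    have h3 : UpperSemicontinuousAt w z := husc z
    exact UpperSemicontinuousAt.upperSemicontinuousWithinAt K (h3.add hc.upperSemicontinuousAt)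
  have hne : K.Nonempty := ⟨z₁, hz₁.le, le_max_right _ _⟩
  obtain ⟨z₂, hz₂, hmax⟩ := UpperSemicontinuousOn.exists_isMaxOn hne hK husch
  have hH : h z₁ ≤ h z₂ := hmax (show z₁ ∈ K from ⟨hz₁.le, le_max_right _ _⟩)
  -- the point of the maximum set farthest from `a`
  have hK' : IsCompact (K ∩ h ⁻¹' Ici (h z₂)) := husch.isCompact_inter_preimage_Ici hK _
  have hnc : Continuous fun z : ℂ => ‖z - a‖ := by fun_prop
  have hne' : (K ∩ h ⁻¹' Ici (h z₂)).Nonempty := ⟨z₂, hz₂, le_refl (h z₂)⟩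
  obtain ⟨z₃, hz₃, hfar3⟩ := hK'.exists_isMaxOn hne' hnc.continuousOn
  have hz₃h : h z₂ ≤ h z₃ := hz₃.2
  have hz₃pos : 0 < h z₃ := (hz₁h.trans_le hH).trans_le hz₃h
  have hall : ∀ z, r ≤ ‖z - a‖ → h z ≤ h z₃ := by
    intro z hz
    rcases le_total ‖z - a‖ R with h1 | h1
    · exact (hmax (show z ∈ K from ⟨hz, h1⟩)).trans hz₃h
    · exact (hfar z h1).le.trans hz₃pos.le
  have hz₃r : r < ‖z₃ - a‖ := by
    refine hz₃.1.1.lt_of_ne fun h1 => ?_
    have h2 := hm z₃ (by rw [mem_closedBall, dist_eq_norm, h1])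
    simp only [hh, hk, ← h1] at hz₃pos
    linarith
  refine no_max husc hB (ε := ε) (k := k) hr hz₃r (hmean z₃) hall fun z hz => ?_
  refine lt_of_le_of_ne (hall z (hz₃r.trans hz).le) fun h1 => ?_
  have hzR : ‖z - a‖ ≤ R := by
    by_contra h2
    push Not at h2
    have h3 := hfar z h2.le
    have h4 : h z = h z₃ := h1
    linarith
  have hzK : z ∈ K ∩ h ⁻¹' Ici (h z₂) := by
    refine ⟨⟨(hz₃r.trans hz).le, hzR⟩, ?_⟩
    change h z₂ ≤ h z
    have h4 : h z = h z₃ := h1
    rw [h4]
    exact hz₃h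
  exact absurd (hfar3 hzK) (not_le.2 hz)

theorem g7Stmt : G7Stmt := by
  intro w husc ⟨B, hB⟩ hmean
  have key : ∀ z z', w z' ≤ w z := by
    intro z z'
    refine le_of_forall_pos_le_add fun ε hε => ?_
    obtain ⟨r, hr, h⟩ := Metric.eventually_nhds_iff_ball.1 (husc z (w z + ε) (by linarith))
    refine le_of_disc husc hB hmean (half_pos hr) (a := z) (fun y hy => (h y ?_).le) z'
    rw [mem_closedBall] at hy
    rw [mem_ball]
    linarith
  exact fun z z' => le_antisymm (key z' z) (key z z')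

end Vale.Agent.P284.H427
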