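import Vale.Agent.P284.H894.G.Spec
import Vale.Agent.P272.K.Inv.Chart

/-! # P284 (helper427), block G0a: finitely many coordinate balls, one of them centred at a given
point (from helper790's A1). -/

open scoped Manifold ContDiff Topology
open Filter Set Metric

noncomputable section

namespace Vale.Agent.P284.H427

open Vale.Agent.P272.K Vale.Agent.P284.H248 Vale.Agent.P284.H894 Vale.Agent.P284.H894.G

/-- **G0a** -/
theorem g0aStmt : G0aStmt := by
  classical
  intro n X _ _ _ _ _ _ L x₀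
  have h : ∀ x : X, ∃ (i : L.ι) (r : ℝ), 0 < r ∧
      closedBall (chartAt (Cm n) x x) (4 * r) ⊆ (chartAt (Cm n) x).target ∧
      ∀ z ∈ closedBall (chartAt (Cm n) x x) (4 * r), (chartAt (Cm n) x).symm z ∈ L.U i := by
    intro x
    obtain ⟨i, hi⟩ := L.cover x
    have hx : x ∈ (chartAt (Cm n) x).source := mem_chart_source _ x
    have ht : chartAt (Cm n) x x ∈ (chartAt (Cm n) x).target := (chartAt (Cm n) x).map_source hx
    have h1 : (chartAt (Cm n) x).target ∩ (chartAt (Cm n) x).symm ⁻¹' L.U i ∈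
        𝓝 (chartAt (Cm n) x x) := by
      refine ((chartAt (Cm n) x).isOpen_inter_preimage_symm (L.isOpen i)).mem_nhds ⟨ht, ?_⟩
      show (chartAt (Cm n) x).symm (chartAt (Cm n) x x) ∈ L.U i
      rw [(chartAt (Cm n) x).left_inv hx]
      exact hi
    obtain ⟨ε, hε, hs⟩ := Metric.nhds_basis_closedBall.mem_iff.1 h1
    refine ⟨i, ε / 4, by positivity, ?_, ?_⟩
    · rw [mul_div_cancel₀ _ (by norm_num : (4 : ℝ) ≠ 0)]
      exact fun z hz => (hs hz).1
    · rw [mul_div_cancel₀ _ (by norm_num : (4 : ℝ) ≠ 0)]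
      exact fun z hz => (hs hz).2
  choose i r hr h1 h2 using h
  obtain ⟨t, -, ht⟩ := isCompact_univ.elim_nhds_subcover
    (fun x : X => (chartAt (Cm n) x).source ∩
      (chartAt (Cm n) x) ⁻¹' ball (chartAt (Cm n) x x) (r x))
    (fun x _ => ((chartAt (Cm n) x).isOpen_inter_preimage isOpen_ball).mem_nhds
      ⟨mem_chart_source _ x, mem_ball_self (hr x)⟩)
  have hc : ∀ x : X, ∃ a : {x : X // x ∈ insert x₀ t}, x ∈ (chartAt (Cm n) a.1).source ∧
      chartAt (Cm n) a.1 x ∈ ball (chartAt (Cm n) a.1 a.1) (r a.1) := by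
    intro x
    obtain ⟨y, hy, hxy⟩ := mem_iUnion₂.1 (ht (mem_univ x))
    exact ⟨⟨y, Finset.mem_insert_of_mem hy⟩, hxy.1, hxy.2⟩
  exact ⟨{
    I := {x : X // x ∈ insert x₀ t}
    fin := inferInstance
    ne := ⟨⟨x₀, Finset.mem_insert_self _ _⟩⟩
    e := fun a => chartAt (Cm n) a.1
    mem := fun a => chart_mem_atlas _ _
    f := fun a => i a.1
    c := fun a => chartAt (Cm n) a.1 a.1
    r := fun a => r a.1
    r_pos := fun a => hr a.1
    sub := fun a => h1 a.1
    frame := fun a => h2 a.1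
    cover := hc }, ⟨x₀, Finset.mem_insert_self _ _⟩, mem_chart_source _ x₀, rfl⟩

end Vale.Agent.P284.H427
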