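import Vale.Agent.P284.H894.G.Spec
import Mathlib.Analysis.Complex.Schwarz
import Mathlib.Analysis.Analytic.Order

/-!
# P284 (helper427), block G2: Schwarz lemma of order `M`
-/

open scoped Topology
open Filter Set Metric Asymptotics

noncomputable section

namespace Vale.Agent.P284.H427

open Vale.Agent.P272.K Vale.Agent.P284.H894.G

/-- Schwarz lemma of order `M` in one variable. -/
theorem schwarz_one {g : ℂ → ℂ} {B : ℝ} {M : ℕ} (hd : DifferentiableOn ℂ g (ball 0 1))
    (hB : ∀ t ∈ ball (0 : ℂ) 1, ‖g t‖ ≤ B) (h : ∀ k < M, iteratedDeriv k g 0 = 0) {t : ℂ}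
    (ht : t ∈ ball (0 : ℂ) 1) : ‖g t‖ ≤ B * ‖t‖ ^ M := by
  rcases M with _ | k
  · simpa using hB t ht
  · have h0 : g 0 = 0 := by simpa using h 0 (Nat.succ_pos k)
    have han : AnalyticAt ℂ g 0 := hd.analyticAt (isOpen_ball.mem_nhds (mem_ball_self one_pos))
    obtain ⟨q, hq, hgq⟩ := (natCast_le_analyticOrderAt han).1
      ((natCast_le_analyticOrderAt_iff_iteratedDeriv_eq_zero han).2 h)
    have hlit : (fun w => g w - g 0) =o[𝓝 0] fun w : ℂ => ‖w - 0‖ ^ k := by
      have h1 : (fun w : ℂ => w ^ k * (w * q w)) =o[𝓝 0] fun w : ℂ => w ^ k * (1 : ℂ) := by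
        refine (isBigO_refl (fun w : ℂ => w ^ k) (𝓝 0)).mul_isLittleO ?_
        rw [isLittleO_one_iff]
        have h2 : ContinuousAt (fun w : ℂ => w * q w) 0 := by
          exact continuousAt_id.mul hq.continuousAt
        simpa [ContinuousAt] using h2
      have h3 : (fun w => g w - g 0) =ᶠ[𝓝 0] fun w : ℂ => w ^ k * (w * q w) := by
        filter_upwards [hgq] with w hw
        rw [hw, h0, sub_zero, sub_zero, smul_eq_mul]
        ring
      refine (h1.congr' h3.symm EventuallyEq.rfl).trans_isBigO ?_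
      refine IsBigO.of_bound 1 ?_
      filter_upwards with w
      simp
    have h4 := Complex.dist_le_mul_div_pow_of_mapsTo_ball_of_isLittleO (R₂ := B) hd (fun w hw => by
      rw [h0, mem_closedBall, dist_zero_right]
      exact hB w hw) hlit ht
    rw [h0, dist_zero_right, dist_zero_right, div_one] at h4
    exact h4

theorem g2Stmt : G2Stmt := by
  intro n f z r B M hr hd hB h w hw
  rw [mem_closedBall, dist_eq_norm] at hw
  have hv : ‖(2 : ℂ) • (w - z)‖ ≤ r := by
    rw [norm_smul, Complex.norm_ofNat]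
    linarith
  have hin : ∀ t ∈ ball (0 : ℂ) 1, z + t • ((2 : ℂ) • (w - z)) ∈ ball z r := by
    intro t ht
    rw [mem_ball, dist_zero_right] at ht
    rw [mem_ball, dist_eq_norm, add_sub_cancel_left, norm_smul]
    calc ‖t‖ * ‖(2 : ℂ) • (w - z)‖ ≤ ‖t‖ * r := by gcongr
      _ < 1 * r := by gcongr
      _ = r := one_mul r
  have h1 := schwarz_one (g := fun t : ℂ => f (z + t • ((2 : ℂ) • (w - z)))) (B := B) (M := M)
    (hd.comp (by fun_prop) hin) (fun t ht => hB _ (hin t ht)) (fun k hk => h k hk _)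
    (t := 1 / 2) (by
      rw [mem_ball, dist_zero_right]
      norm_num)
  have h2 : z + (1 / 2 : ℂ) • ((2 : ℂ) • (w - z)) = w := by
    rw [smul_smul]
    norm_num
  rw [h2] at h1
  refine h1.trans_eq ?_
  congr 2
  norm_num

end Vale.Agent.P284.H427
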