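import Vale.Agent.P284.H427.G3a
import Vale.Agent.P284.H894.G.Spec

/-!
# P284 (helper427), block G3: exponential growth gives a definite drop between two cells
-/

open scoped Topology Pointwise
open Filter Set Metric

noncomputable section

namespace Vale.Agent.P284.H427

open Vale.Agent.P272.K Vale.Agent.P284.H894 Vale.Agent.P284.H894.G

variable {n : ℕ} {Γ : Type} [Group Γ]

/-- The translate by `y` of a section, multiplied by the number `b`. -/
def trl {C : Coc n Γ} {m : ℕ} (s : HS C m) (y : Γ) (b : ℂ) : HS C m where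
  F γ a z := b * s.F (y * γ) a z
  holo γ a := (s.holo (y * γ) a).const_mul b
  change γ a d z hz hza hzd := by
    rw [s.change (y * γ) a d z hz hza hzd, mul_assoc y γ]
    ring

theorem rpow_half_le {x : ℝ} {x' : ℝ} (h : x' ≤ x) : (1 / 2 : ℝ) ^ x ≤ (1 / 2 : ℝ) ^ x' :=
  Real.rpow_le_rpow_of_exponent_ge (by norm_num) (by norm_num) h

theorem g3Stmt : G3Stmt := by
  intro hG1 hG2 n Γ _ C m s ρ a z hz hs hp S hS hexp r hr hball
  obtain ⟨A, B, hA, hB, hF⟩ := hG1 n Γ C m s ρ a z hz hs hp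
  -- the level below which the lower bound is contradicted
  obtain ⟨κ, hκ⟩ : ∃ κ : ℕ, (1 / 2 : ℝ) ^ κ < A / B :=
    exists_pow_lt_of_lt_one (div_pos hA hB) (by norm_num)
  have hκ' : B * (1 / 2 : ℝ) ^ (κ : ℝ) < A := by
    rw [Real.rpow_natCast]
    have := (lt_div_iff₀ hB).1 hκ
    linarith
  obtain ⟨t, ht, θ, hθ0, hθ1, hK⟩ := firstDrop hS hexp n (κ : ℝ)
    (J := {F : HS C m // ∀ γ b, ∀ w ∈ C.V b, ‖F.F γ b w‖ ≤ B})
    (fun F x g => ∀ w ∈ closedBall z r, ‖F.1.F g a w‖ ≤ B * (1 / 2 : ℝ) ^ x)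
    (fun F x x' g hx h w hw => (h w hw).trans
      (mul_le_mul_of_nonneg_left (rpow_half_le hx) hB.le))
    (by
      intro M T hMT
      obtain ⟨F, hFB, hFv, g, hg, hgA⟩ := hF M T hMT
      refine ⟨⟨F, hFB⟩, ?_, g, hg, ?_⟩
      · intro w hw
        rw [Real.rpow_natCast]
        refine hG2 n (F.F 1 a) z (2 * r) B M (by linarith) ((F.holo 1 a).mono hball)
          (fun w hw => hFB 1 a w (hball hw)) hFv w ?_
        rwa [show 2 * r / 2 = r by ring]
      · intro h
        have := h z (mem_closedBall_self hr.le)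
        linarith)
  choose F y x hx hD hnD using fun j : ℕ => hK ((j : ℝ) + 1)
  push Not at hnD
  choose w hw hw' using hnD
  have hx0 : ∀ j, 0 < x j := fun j => lt_of_lt_of_le (by positivity) (hx j)
  have hlog : 0 < Real.log 2 := Real.log_pos (by norm_num)
  have hB0 : ∀ v : ℂ, ‖((B⁻¹ : ℝ) : ℂ) * v‖ = ‖v‖ / B := by
    intro v
    rw [norm_mul, Complex.norm_real, Real.norm_eq_abs, abs_of_pos (inv_pos.2 hB)]
    ring
  have hhalf : ∀ j (c : ℝ), ((1 / 2 : ℝ) ^ (c * x j)) ^ (1 / (x j * Real.log 2)) =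
      Real.exp (-c) := by
    intro j c
    rw [← Real.rpow_mul (by norm_num), Real.rpow_def_of_pos (by norm_num : (0 : ℝ) < 1 / 2)]
    congr 1
    rw [one_div, Real.log_inv]
    have := (hx0 j).ne'
    have := hlog.ne'
    field_simp
  refine ⟨t, ht, Real.exp (-1), Real.exp (-θ), (Real.exp_pos _).le, ?_,
    fun j => trl (F j).1 (y j) ((B⁻¹ : ℝ) : ℂ), fun j => 1 / (x j * Real.log 2), ?_, ?_, ?_, ?_, ?_⟩
  · rw [Real.exp_lt_exp]
    linarith
  · intro j
    have := hx0 j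
    positivity
  · have h1 : Tendsto (fun j : ℕ => 1 / Real.log 2 * (1 / ((j : ℝ) + 1))) atTop (𝓝 0) := by
      simpa using (tendsto_one_div_add_atTop_nhds_zero_nat (𝕜 := ℝ)).const_mul (1 / Real.log 2)
    refine squeeze_zero (fun j => ?_) (fun j => ?_) h1
    · have := hx0 j
      positivity
    · rw [one_div_mul_one_div, mul_comm (Real.log 2)]
      have := hx j
      gcongr
  · intro j γ b w hw
    change ‖((B⁻¹ : ℝ) : ℂ) * (F j).1.F (y j * γ) b w‖ ≤ 1
    rw [hB0]
    exact (div_le_one hB).2 ((F j).2 _ b w hw)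
  · intro j w hw
    change ‖((B⁻¹ : ℝ) : ℂ) * (F j).1.F (y j * 1) a w‖ ^ (1 / (x j * Real.log 2)) ≤ Real.exp (-1)
    have h1 := hD j w hw
    rw [hB0, mul_one, ← hhalf j 1, one_mul]
    refine Real.rpow_le_rpow (by positivity) ?_ (by have := hx0 j; positivity)
    rw [div_le_iff₀ hB]
    linarith
  · intro j
    refine ⟨w j, hw j, ?_⟩
    change Real.exp (-θ) ≤ ‖((B⁻¹ : ℝ) : ℂ) * (F j).1.F (y j * t) a (w j)‖ ^
      (1 / (x j * Real.log 2))
    have h1 := hw' j
    rw [hB0, ← hhalf j θ]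
    refine Real.rpow_le_rpow (by positivity) ?_ (by have := hx0 j; positivity)
    rw [le_div_iff₀ hB]
    linarith

end Vale.Agent.P284.H427
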