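import Vale.Agent.P284.H894.G.Defs
import Mathlib.Algebra.Group.Pointwise.Set.Finite

/-!
# P284 (helper427): the pure half of block G3: the first drop along a word and the pigeonhole
-/

open scoped Pointwise

noncomputable section

namespace Vale.Agent.P284.H427

open Vale.Agent.P284.H894.G

section
variable {G : Type*} [Group G] {S : Set G}

theorem finite_pow' {S : Set G} (hS : S.Finite) (k : ℕ) : (S ^ k).Finite := by
  induction k with
  | zero => rw [pow_zero]; exact Set.finite_one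
  | succ k ih => rw [pow_succ]; exact ih.mul hS

/-- The first drop along a word. -/
theorem drop_or (S : Set G) (D : ℝ → G → Prop) (x θ : ℝ) (h1 : D x 1) :
    ∀ (k : ℕ), ∀ g ∈ S ^ k, D (x * θ ^ k) g ∨
      ∃ i < k, ∃ y : G, ∃ t ∈ S, D (x * θ ^ i) y ∧ ¬ D (x * θ ^ (i + 1)) (y * t) := by
  intro k
  induction k with
  | zero =>
    intro g hg
    rw [pow_zero] at hg
    rw [Set.mem_one.1 hg]
    left
    simpa using h1
  | succ k ih =>
    intro g hg
    rw [pow_succ] at hg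
    obtain ⟨g', hg', s, hs, rfl⟩ := Set.mem_mul.1 hg
    rcases ih g' hg' with h | ⟨i, hi, y, t, ht, hy⟩
    · by_cases hD : D (x * θ ^ (k + 1)) (g' * s)
      · exact Or.inl hD
      · exact Or.inr ⟨k, Nat.lt_succ_self k, g', s, hs, h, hD⟩
    · exact Or.inr ⟨i, hi.trans (Nat.lt_succ_self k), y, t, ht, hy⟩

/-- **The pure half of G3.** -/
theorem firstDrop (hS : S.Finite) (hexp : ¬ Subexp S) (d : ℕ) (κ : ℝ) {J : Type*}
    (D : J → ℝ → G → Prop) (hmono : ∀ F x x' g, x' ≤ x → D F x g → D F x' g)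
    (h : ∀ (M : ℕ) (T : Finset G), M ^ (d + 1) < T.card →
      ∃ F, D F M 1 ∧ ∃ g ∈ T, ¬ D F κ g) :
    ∃ t ∈ S, ∃ θ : ℝ, 0 < θ ∧ θ < 1 ∧ ∀ K : ℝ, ∃ F, ∃ y : G, ∃ x : ℝ, K ≤ x ∧
      D F x y ∧ ¬ D F (θ * x) (y * t) := by
  classical
  unfold Subexp at hexp
  push Not at hexp
  obtain ⟨ε, hε, hbig⟩ := hexp
  set θ : ℝ := Real.exp (-(ε / (d + 1))) with hθ
  have hd : (0 : ℝ) < d + 1 := by positivity
  have hθ0 : 0 < θ := Real.exp_pos _
  have hθ1 : θ < 1 := by
    rw [hθ, Real.exp_lt_one_iff]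
    have : 0 < ε / (d + 1) := div_pos hε hd
    linarith
  -- for every `K` there is a drop of size `≥ K` at some `t ∈ S`
  have key : ∀ K : ℝ, ∃ t ∈ S, ∃ F, ∃ y : G, ∃ x : ℝ, K ≤ x ∧ D F x y ∧
      ¬ D F (θ * x) (y * t) := by
    intro K
    set K' : ℝ := max 1 (max K κ) with hK'
    have hK'1 : 1 ≤ K' := le_max_left _ _
    have hK'K : K ≤ K' := (le_max_left _ _).trans (le_max_right _ _)
    have hK'κ : κ ≤ K' := (le_max_right _ _).trans (le_max_right _ _)
    obtain ⟨k, hk⟩ := hbig ((2 * K') ^ (d + 1))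
    set E : ℝ := Real.exp (ε / (d + 1)) ^ k with hE
    have hE1 : 1 ≤ E := by
      refine one_le_pow₀ ?_
      rw [Real.one_le_exp_iff]
      exact (div_pos hε hd).le
    have hEd : E ^ (d + 1) = Real.exp (ε * k) := by
      rw [hE, ← pow_mul, ← Real.exp_nat_mul]
      congr 1
      push_cast
      field_simp
    have hEθ : E * θ ^ k = 1 := by
      rw [hE, hθ, ← mul_pow, ← Real.exp_add]
      simp
    set M : ℕ := ⌈K' * E⌉₊ with hM
    have hKE : 1 ≤ K' * E := by nlinarith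
    have hM1 : K' * E ≤ M := Nat.le_ceil _
    have hM2 : (M : ℝ) ≤ 2 * K' * E := by
      have := (Nat.ceil_lt_add_one (by positivity : 0 ≤ K' * E)).le
      rw [← hM] at this
      linarith
    have hSk : (S ^ k).Finite := finite_pow' hS k
    set T : Finset G := hSk.toFinset with hT
    have hTc : T.card = (S ^ k).ncard := by
      rw [hT, Set.ncard_eq_toFinset_card _ hSk]
    have hMT : M ^ (d + 1) < T.card := by
      have h3 : (M : ℝ) ^ (d + 1) < T.card := by
        calc (M : ℝ) ^ (d + 1) ≤ (2 * K' * E) ^ (d + 1) := by gcongr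
          _ = (2 * K') ^ (d + 1) * Real.exp (ε * k) := by rw [mul_pow, hEd]
          _ < (S ^ k).ncard := hk
          _ = T.card := by rw [hTc]
      exact_mod_cast h3
    obtain ⟨F, hF1, g, hg, hgκ⟩ := h M T hMT
    have hgS : g ∈ S ^ k := by simpa [hT] using hg
    have hlow : ∀ i ≤ k, K' ≤ M * θ ^ i := by
      intro i hi
      calc K' = K' * E * θ ^ k := by rw [mul_assoc, hEθ, mul_one]
        _ ≤ M * θ ^ k := by gcongr
        _ ≤ M * θ ^ i := by
          have := pow_le_pow_of_le_one hθ0.le hθ1.le hi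
          gcongr
    rcases drop_or S (D F) M θ hF1 k g hgS with h4 | ⟨i, hi, y, t, ht, h5, h6⟩
    · exact absurd (hmono F _ _ g (hK'κ.trans (hlow k le_rfl)) h4) hgκ
    · refine ⟨t, ht, F, y, M * θ ^ i, hK'K.trans (hlow i hi.le), h5, ?_⟩
      rwa [show θ * ((M : ℝ) * θ ^ i) = M * θ ^ (i + 1) by ring]
  -- pigeonhole
  by_contra hcon
  push Not at hcon
  have h7 : ∀ t ∈ S, ∃ K : ℝ, ∀ F, ∀ y : G, ∀ x : ℝ, K ≤ x → D F x y → D F (θ * x) (y * t) :=
    fun t ht => hcon t ht θ hθ0 hθ1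
  choose! Kf hKf using h7
  obtain ⟨t₀, -⟩ := key 0
  obtain ⟨K, hK⟩ : ∃ K : ℝ, ∀ t ∈ S, Kf t ≤ K := by
    obtain ⟨K, hK⟩ := (hS.image Kf).bddAbove
    exact ⟨K, fun t ht => hK (Set.mem_image_of_mem _ ht)⟩
  obtain ⟨t, ht, F, y, x, hx, h8, h9⟩ := key K
  exact h9 (hKf t ht F y x ((hK t ht).trans hx) h8)

end

end Vale.Agent.P284.H427
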