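import Vale.Agent.P284.H894.G.Spec

/-!
# P284 (helper427), block G6: assembly: exponential growth gives a bounded psh function with a drop
-/

open scoped Topology Manifold ContDiff
open Filter Set Metric

noncomputable section

namespace Vale.Agent.P284.H427

open Vale.Agent.P272.K Vale.Agent.P284.H248 Vale.Agent.P284.H894 Vale.Agent.P284.H894.G

theorem g6Stmt : G6Stmt := by
  intro hG0a hA4 hA5 hG0b hG3 hG4 hG5 n X _ _ _ _ _ _ L hL E Γ _ _ _ _ p hp S hS hexp y W hW
  classical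
  obtain ⟨P, a, hxa, hca⟩ := hG0a n X L (p y)
  -- values at the centres
  have hyb : ∀ b : P.I, ∃ y' : E, p y' = (P.e b).symm (P.c b) := fun b => hp.surj _
  choose yb hyb using hyb
  obtain ⟨K, σ, hσc, hσp, hσy, hσu⟩ := hG5 n X L P E Γ p hp (Function.update yb a y) (by
    intro b
    by_cases hb : b = a
    · subst hb
      rw [Function.update_self, ← hca, (P.e b).left_inv hxa]
    · rw [Function.update_of_ne hb]
      exact hyb b)
  obtain ⟨PU⟩ := hA4 n X L P Γ K
  obtain ⟨w⟩ := hA5 n X L P Γ K hL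
  obtain ⟨m, hm, s, ρ, hs, hpk⟩ := hG0b n Γ (mkCoc P K) PU w a
  have hσa : σ a (P.c a) = y := by rw [hσy, Function.update_self]
  have hr4 : 0 < P.r a := P.r_pos a
  have hcont : ContinuousAt (σ a) (P.c a) :=
    (hσc a).continuousAt (ball_mem_nhds _ (by linarith))
  have hpre : ∀ᶠ z in 𝓝 (P.c a), σ a z ∈ W := hcont.eventually_mem (by rwa [hσa])
  obtain ⟨δ, hδ, hδW⟩ := Metric.eventually_nhds_iff_ball.1 hpre
  obtain ⟨r, hr0, hr⟩ : ∃ r : ℝ, 0 < r ∧ r < min δ (P.r a) := exists_between (lt_min hδ hr4)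
  have hrδ : r < δ := hr.trans_le (min_le_left _ _)
  have hrr : r < P.r a := hr.trans_le (min_le_right _ _)
  have hVa : (mkCoc P K).V a = ball (P.c a) (3 * P.r a) := rfl
  obtain ⟨t, ht, α, β, hα, hαβ, F, q, hq0, hq, hF1, hFα, hFβ⟩ := hG3 n Γ (mkCoc P K) m s ρ a
    (P.c a) (by rw [hVa]; exact mem_ball_self (by linarith)) hs hpk S hS hexp r hr0 (by
      rw [hVa]
      exact ball_subset_ball (by linarith))
  obtain ⟨v, hv1, hv2⟩ := hG4 n Γ (mkCoc P K) m F q hq0 hq hF1
  obtain ⟨u, hu, hu01, huv⟩ := hσu v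
  have hsub : closedBall (P.c a) r ⊆ (mkCoc P K).V a := by
    rw [hVa]
    exact closedBall_subset_ball (by linarith)
  obtain ⟨z, hz, hzβ⟩ := hv2 t a (closedBall (P.c a) r) β (isCompact_closedBall _ _) hsub hFβ
  have hlow := hv1 1 a (ball (P.c a) r) α isOpen_ball (ball_subset_closedBall.trans hsub)
    (fun j w hw => hFα j w (ball_subset_closedBall hw)) (P.c a) (mem_ball_self hr0)
  refine ⟨t, ht, u, hu, hu01, σ a z, hδW z (closedBall_subset_ball hrδ hz), ?_⟩
  have e1 := huv 1 a (P.c a) (mem_ball_self (by linarith))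
  rw [one_smul, hσa] at e1
  have e2 := huv t a z (hsub hz)
  rw [e1, e2]
  exact (hlow.trans_lt hαβ).trans_le hzβ

end Vale.Agent.P284.H427
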